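import Vale.Agent.P007.MaxOrders

/-!
P007: in every composite degree, maximal orders of fields with discriminants tending to infinity
whose packet measures do not tend weakly to the invariant probability on the space of lattices;
the same for orders inside one field with an intermediate field.
-/

namespace Vale.Agent.Results.P007.MaxOrderFailure

open Vale.Agent.P007.Composite

/-- P007, every composite degree. -/
theorem result :
    (∀ n : ℕ, 4 ≤ n → ¬ n.Prime →
      ∃ (P : Polynomial ℤ) (K : ℕ → Type) (_ : ∀ k, Field (K k)) (_ : ∀ k, NumberField (K k))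
        (σ : ∀ k, Fin n → K k →+* ℝ),
        (∀ k, Module.finrank ℚ (K k) = n ∧ Function.Injective (σ k) ∧
          (∃ r ∈ (integralClosure ℤ (K k)).toSubring, Polynomial.aeval r P = 0) ∧
          (packetSet (σ k) (integralClosure ℤ (K k)).toSubring).Nonempty) ∧
        Filter.Tendsto (fun k => |NumberField.discr (K k)|) Filter.atTop Filter.atTop ∧
        HasRootTest n P) ∧
    (∀ (n : ℕ) (P : Polynomial ℤ), 0 < n → P.Monic → (∀ z : ℤ, P.eval z ≠ 0) → HasRootTest n P) ∧
    (∀ (K : Type) [Field K] [NumberField K] (n : ℕ) (σ : Fin n → K →+* ℝ),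
      Module.finrank ℚ K = n → Function.Injective σ →
      ∀ F : IntermediateField ℚ K, F ≠ ⊥ → F ≠ ⊤ → FailsEquidistribution K σ) :=
  ⟨exists_maximal_orders, fun _ _ hn hP hroot => hasRootTest hn hP hroot,
    fun _ _ _ _ σ hK hσ F hb ht => failsEquidistribution σ (hK ▸ Module.finrank_pos)
      (hasObstructedOrders_of_intermediateField σ hK hσ F hb ht)⟩

end Vale.Agent.Results.P007.MaxOrderFailure
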